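import Vale.Agent.P275SA.Mv
import Vale.Agent.P275RH.Wnd
import Vale.Agent.P275AD.Trv

/-!
# P275, block SA: the winding number of a trivialisation of `O(D)` around the puncture
-/

set_option linter.unusedSectionVars false

open scoped Real Topology Manifold ContDiff
open Set Filter Metric Complex

noncomputable section

namespace Vale.Agent.P275SA

open Vale.Agent.P275GC Vale.Agent.P275GC.At Vale.Agent.P275RH Vale.Agent.P275AD
open Vale.Agent.P275NA (Fm Cy)
open Vale.Agent.P275MO (off)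
open Vale.Agent.P275ST (ctr loc IsTriv deg Pc IsMeridian Marking)
open Vale.Agent.P275Z (trv)

variable {C : Type} [TopologicalSpace C] [ChartedSpace ℂ C] [T2Space C] [ConnectedSpace C]
  {A : At C} {l : Cy A ℂ} {s : Fm A ℂ} {p : C} {D : C →₀ ℤ} {ℓ : C → ℂ} {g : ℕ} {x₀ y : Pc p}

/-- meridians do not wind -/
theorem mer_zero (M : Marking g p x₀) {r : C(Pc p, ℂ)} (h : ∀ y, r y ≠ 0)
    {γ : FundamentalGroup (Pc p) y} (hγ : IsMeridian p y γ) : wnd h y γ = 1 := by
  have := pc_pc p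
  obtain ⟨u, rfl⟩ := mer_isConj (mer_bpt M.rel (.mk (PathConnectedSpace.somePath y x₀))) hγ
  rw [map_mul, map_mul, map_inv, mul_inv_cancel_comm, wnd_bpt, map_list_prod, map_list_prod]
  refine List.prod_eq_one fun a ha => ?_
  simp only [List.map_ofFn, List.mem_ofFn, Function.comp, map_commutatorElement] at ha
  obtain ⟨j, rfl⟩ := ha
  exact commutatorElement_eq_one_iff_mul_comm.2 (mul_comm _ _)

theorem ex_glob {r : Fm A ℂ} (c : ∀ j, ∀ w ∈ off A p j, ContinuousAt (r j) w)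
    (t : ∀ j k, ∀ w ∈ A.O j k, (A.e j).symm w ≠ p → r j w = r k (A.tr j k w)) :
    ∃ R : C(Pc p, ℂ), ∀ (y : Pc p) j, y.1 ∈ (A.e j).source → R y = r j (A.e j y) := by
  choose k hk _ using A.cov
  have e : ∀ (y : Pc p) j, y.1 ∈ (A.e j).source → r (k y) (A.e (k y) y) = r j (A.e j y) :=
    fun y j a => by
      rw [t _ j _ (mem_O (hk y) a) (by rw [(A.e _).left_inv (hk y)]; exact y.2), tr_e (hk y)]
  refine ⟨⟨_, continuous_iff_continuousAt.2 fun y => ?_⟩, e⟩
  refine ContinuousAt.congr ((c (k y) _ ⟨map_src (hk y), by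
    rw [(A.e _).left_inv (hk y)]; exact y.2⟩).comp_of_eq
      (((A.e (k y)).continuousAt (hk y)).comp continuous_subtype_val.continuousAt) rfl) ?_
  filter_upwards [continuous_subtype_val.continuousAt ((A.e (k y)).open_source.mem_nhds (hk y))]
    with z a using (e z _ a).symm

variable [IsManifold 𝓘(ℂ) ω C]

theorem ex_f (p : C) (D : C →₀ ℤ) :
    ∃ f : C → ℂ, ∀ q, Tv ((D - Finsupp.single p (deg D) : C →₀ ℤ) q) (loc q f) (ctr q) := by
  let G : AddSubgroup (C →₀ ℤ) :=
    { carrier := {D | ∃ ℓ : C → ℂ, ∀ x, Tv (D x) (loc x ℓ) (ctr x)}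
      add_mem' := fun ⟨f, a⟩ ⟨f', b⟩ => ⟨fun y => f y * f' y, fun x => (a x).mul (b x)⟩
      zero_mem' := ⟨fun _ => 1, fun _ => tv_sm contDiffAt_const one_ne_zero⟩
      neg_mem' := fun ⟨f, a⟩ => ⟨fun y => (f y)⁻¹, fun x => (a x).inv⟩ }
  have a : IsLocallyConstant fun x : C => Finsupp.single x (1 : ℤ) - Finsupp.single p 1 ∈ G :=
    (IsLocallyConstant.iff_eventually_eq _).2 fun c => (tv_near c).mono fun x e => by
      have : Finsupp.single c 1 - Finsupp.single x 1 ∈ G := e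
      exact propext ⟨fun b => by simpa using add_mem this b, fun b => by simpa using sub_mem b this⟩
  show _ ∈ G
  induction D using Finsupp.induction_linear with
  | zero => simp [P275ST.deg]
  | add f g c d =>
    rw [P275ST.deg, Finsupp.sum_add_index' (fun _ => rfl) fun _ _ _ => rfl, Finsupp.single_add,
      add_sub_add_comm]
    exact add_mem c d
  | single x k =>
    simpa [P275ST.deg, smul_sub] using zsmul_mem ((a.apply_eq_of_preconnectedSpace x p).mpr
      (by simp only [sub_self, zero_mem])) k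

/-- the trivialisation near the puncture -/
theorem ex_fac (ok : Ok A) (hs : Dv A D l s) (h : IsTriv D p ℓ) {a : Fin A.N}
    (hp : p ∈ (A.e a).source) : ∃ (R : C(Pc p, ℂ)) (v : ℂ → ℂ), (∀ y, R y ≠ 0) ∧
      v (A.e a p) ≠ 0 ∧ ∀ᶠ w in 𝓝 (A.e a p), ContinuousAt v w ∧ ∀ y : Pc p,
        y.1 = (A.e a).symm w → trv A s ℓ a w = R y * ((w - A.e a p) ^ deg D * v w) := by
  obtain ⟨f, hf⟩ := ex_f p D
  have h1 : Dv A 0 (fun _ _ _ => 1) fun _ _ => 1 :=
    ⟨A.cc_one, fun _ _ _ => analyticAt_const.meromorphicAt, fun _ _ _ => by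
      simp [meromorphicOrderAt_const], fun _ _ _ _ => by simp⟩
  have h2 : IsTriv 0 p fun y => ℓ y * (f y)⁻¹ := fun x e => by
    have := Tv.mul (h x e) (hf x).inv
    rwa [Finsupp.sub_apply, Finsupp.single_eq_of_ne e, sub_zero, add_neg_cancel] at this
  obtain ⟨R, hR⟩ := ex_glob (fun j w a => (trv_spec ok h1 h2 a).1.continuousAt)
    fun j k w a b => (trv_tr ok h1 h2 a b).trans (one_mul _)
  have t := (A.e a).map_source hp
  have k := ((((ok a).bi t).tv (loc_tc t f)).2 (hf _)).mul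
    (tv_ord (hs.mer a _ (map_src hp)) (hs.ord a _ (map_src hp)))
  rw [pt, (A.e a).left_inv hp, Finsupp.sub_apply, Finsupp.single_eq_same, ← sub_eq_add_neg,
    sub_sub_cancel_left] at k
  obtain ⟨v, v1, v2, v3⟩ := k
  refine ⟨R, v, fun y => ?_, v2, ?_⟩
  · obtain ⟨j, b, -⟩ := A.cov y
    rw [hR y j b]
    exact (trv_spec ok h1 h2 ⟨map_src b, by rw [(A.e _).left_inv b]; exact y.2⟩).2.1
  filter_upwards [sm_ev v1, ev_punct v3, isOpen_ball.mem_nhds (map_src hp),
    (v1.continuousAt.eventually_ne v2).eventually_nhds] with w b c d e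
  refine ⟨b.continuousAt, fun y hy => ?_⟩
  have o : w ∈ off A p a := ⟨d, hy ▸ y.2⟩
  have n : w ≠ A.e a p := fun e => o.2 (by rw [e, (A.e a).left_inv hp])
  have s1 := trv_spec ok hs h o
  have s2 := trv_spec ok h1 h2 o
  rw [hR y a (hy ▸ map_tgt d), hy, rinv d]
  refine eq_of_ev (g := fun w => trv A (fun _ _ => 1) (fun y => ℓ y * (f y)⁻¹) a w *
    ((w - A.e a p) ^ deg D * v w)) s1.1.continuousAt (s2.1.continuousAt.mul
      (((continuousAt_id.sub continuousAt_const).zpow₀ _ (.inl (sub_ne_zero.2 n))).mul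
        b.continuousAt)) ?_
  filter_upwards [s1.2.2, s2.2.2, c, pn e, pn (eventually_ne_nhds n)] with u e1 e2 e3 e4 e5
  have e6 : f ((A.e a).symm u) ≠ 0 := fun e => e4 (by rw [← e3, e, zero_mul, mul_zero])
  rw [← e1, ← e2, ← e3, zpow_neg, mul_inv_cancel_left₀ (zpow_ne_zero _ (sub_ne_zero.2 e5)),
    mul_one, mul_assoc, inv_mul_cancel_left₀ e6]

variable {G : Geo A} {i : Fin G.N}

theorem tr_trv (ok : Ok A) (hs : Dv A D l s) (h : IsTriv D (ct G i) ℓ) : Tr l G i (trv A s ℓ) :=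
  ⟨hs.cc, fun _ _ a => (trv_spec ok hs h a).1.continuousAt, fun _ _ a => (trv_spec ok hs h a).2.1,
    fun _ _ _ a b => trv_tr ok hs h a b⟩

theorem ex_log {x₀ : Pc (ct G i)} (M : Marking g _ x₀) (ok : Ok A) (hs : Dv A D l s)
    (h : IsTriv D (ct G i) ℓ) : ∃ V : ℂ → ℂ, ContinuousOn V {L | ‖cexp L‖ < 6 * G.δ} ∧
      (∀ L, ‖cexp L‖ < 6 * G.δ → cexp (V L) = trv A s ℓ (G.k i) (G.c i + cexp L)) ∧
      ∀ L, ‖cexp L‖ < 6 * G.δ → V (L + 2 * π * I) = V L + 2 * π * I * deg D := by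
  classical
  have d0 := G.δ0
  have T := tr_trv ok hs h
  set H : Set ℂ := {L | ‖cexp L‖ < 6 * G.δ} with hH
  have cv : Convex ℝ H := by
    convert convex_halfSpace_re_lt (Real.log (6 * G.δ)) using 1
    ext L
    show ‖cexp L‖ < _ ↔ L.re < _
    rw [norm_exp, Real.lt_log_iff_exp_lt (by linarith)]
  have per : ∀ L ∈ H, L + 2 * π * I ∈ H := fun L a =>
    (congrArg norm (exp_periodic L)).trans_lt a
  have o : ∀ L ∈ H, G.c i + cexp L ∈ off A (ct G i) (G.k i) := fun L a =>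
    off_ct (a.out.trans (by linarith)) (exp_ne_zero L)
  have hp := (Geo.V_spec (G.ctr_mem i)).1
  obtain ⟨R, v, r0, v0, e⟩ := ex_fac ok hs h hp
  rw [e_ct] at v0 e
  obtain ⟨ρ, ρ0, e⟩ := Metric.eventually_nhds_iff_ball.1 (e.and
    ((e.self_of_nhds.1.eventually (ball_mem_nhds _ (norm_pos_iff.2 v0))).and
      (ball_mem_nhds (G.c i) (show 0 < 6 * G.δ by linarith))))
  have m : ∀ {L}, ‖cexp L‖ < ρ → G.c i + cexp L ∈ ball (G.c i) ρ := fun a => by simpa using a
  have m' : ∀ {L}, ‖cexp L‖ < ρ → L ∈ H := fun a => by simpa [hH] using (e _ (m a)).2.2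
  have l0 : ‖cexp (log (ρ / 2 : ℝ))‖ < ρ := by
    rw [exp_log (ofReal_ne_zero.2 (half_pos ρ0).ne'), norm_real,
      Real.norm_of_nonneg (half_pos ρ0).le]
    exact half_lt_self ρ0
  have : ContractibleSpace H := cv.contractibleSpace ⟨_, m' l0⟩
  have : LocallyPathConnectedSpace H := cv.locallyPathConnectedSpace
  obtain ⟨V, ⟨-, hV⟩, -⟩ := isCoveringMapOn_exp.existsUnique_continuousMap_lifts (A := H)
    ⟨fun L => trv A s ℓ (G.k i) (G.c i + cexp L), continuous_iff_continuousAt.2 fun L =>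
      (T.ct _ _ (o L L.2)).comp_of_eq (by fun_prop) rfl⟩ (a₀ := ⟨_, m' l0⟩) (e₀ := log _)
      (exp_log (T.ne _ _ (o _ (m' l0)))) fun L => T.ne _ _ (o L L.2)
  have hV : ∀ L : H, cexp (V L) = trv A s ℓ (G.k i) (G.c i + cexp L) := congrFun hV
  have lc : IsLocallyConstant fun L : H => V ⟨_, per L L.2⟩ - V L :=
    (IsLocallyConstant.iff_eventually_eq _).2 fun L => lc_of_exp
      ((V.continuous.comp (Continuous.subtype_mk (by fun_prop) _)).sub V.continuous).continuousAt
      (.of_forall fun L => by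
        rw [Complex.exp_sub, hV, hV, exp_periodic, div_self (T.ne _ _ (o L L.2))])
  have tg : ball (G.ch i (ct G i)) ρ ⊆ (G.ch i).target := fun w a =>
    G.tgt i (r := 6 * G.δ) (by linarith) (ball_subset_closedBall (e w (e_ct (i := i) ▸ a)).2.2)
  obtain ⟨_, -, lg⟩ := ex_seg (y := ⟨_, el_ne hp tg l0⟩) (y' := ⟨_, el_ne hp tg l0⟩)
    (L' := log (ρ / 2 : ℝ) + 2 * π * I) hp tg l0 (by rwa [exp_periodic]) rfl
    (by rw [exp_periodic])
  have z := mer_zero M r0 (lg.mer (ok _) hp tg (.refl _))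
  obtain ⟨γ, lam, e1, e2⟩ := lg
  have sl : ∀ t, v (G.c i + cexp (lam t)) / v (G.c i) ∈ slitPlane := fun t => by
    have := mem_slitPlane_of_norm_lt_one (z := (v (G.c i + cexp (lam t)) - v (G.c i)) / v (G.c i))
      (by rw [norm_div, div_lt_one (norm_pos_iff.2 v0)]
          exact mem_ball_iff_norm.1 (e _ (m (e2 t).1)).2.1)
    rwa [sub_div, div_self v0, add_sub_cancel] at this
  have cv' : Continuous fun t => v (G.c i + cexp (lam t)) := continuous_iff_continuousAt.2 fun t =>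
    (e _ (m (e2 t).1)).1.1.comp_of_eq (by fun_prop) rfl
  have w := wnd_spec r0 γ (fun t => V ⟨lam t, m' (e2 t).1⟩ - deg D * lam t -
      log (v (G.c i + cexp (lam t)) / v (G.c i)) - log (v (G.c i)))
    ((((V.continuous.comp (lam.continuous.subtype_mk _)).sub
      (continuous_const.mul lam.continuous)).sub ((cv'.div_const _).clog sl)).sub continuous_const)
    fun t => by
      have a := div_ne_zero_iff.1 (slitPlane_ne_zero (sl t))
      have b := zpow_ne_zero (deg D) (exp_ne_zero (lam t))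
      rw [Complex.exp_sub, Complex.exp_sub, Complex.exp_sub, hV, exp_log v0,
        exp_log (slitPlane_ne_zero (sl t)), exp_int_mul,
        (e _ (m (e2 t).1)).1.2 (γ t) (by rw [(e2 t).2, e_ct]), add_sub_cancel_left]
      field_simp [a.1]
  rw [bpt_refl, e1] at z
  rw [z] at w
  simp only [Path.source, Path.target, exp_periodic (log (ρ / 2 : ℝ)), toAdd_one] at w
  let W : ℂ → ℂ := fun L => if a : L ∈ H then V ⟨L, a⟩ else 0
  have hW : ∀ L (a : L ∈ H), W L = V ⟨L, a⟩ := fun L a => dif_pos a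
  refine ⟨W, continuousOn_iff_continuous_domRestrict.2 (V.continuous.congr fun L => (hW L L.2).symm),
    fun L a => by rw [hW L a, hV], fun L a => ?_⟩
  have := lc.apply_eq_of_preconnectedSpace ⟨L, a⟩ ⟨_, m' l0⟩
  rw [hW _ (per L a), hW L a]
  linear_combination this - w

/-- **SCA** -/
theorem sca : SCA := fun _ T _ _ _ M _ h =>
  let ⟨V, a, b, c⟩ := ex_log M T.ok T.dv h
  ⟨(tr_trv T.ok T.dv h).sca (by have := T.std.two; omega) V a b c⟩

end Vale.Agent.P275SA
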