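import Vale.Agent.P275RH.TpD

/-!
# P275, block SA: moving the pole of a trivialisation inside a small disc
-/

set_option linter.unusedSectionVars false

open scoped Real Topology
open Set Filter Metric Complex

noncomputable section

namespace Vale.Agent.P275SA

open Vale.Agent.P275GC Vale.Agent.P275GC.At Vale.Agent.P275RH
open Vale.Agent.P275NA (Fm Cy)
open Vale.Agent.P275MO (off)
open Vale.Agent.P275ST (zeta)
open Vale.Agent.P275RL (Nd)

section plane

variable {ε : ℝ} {b v : ℂ}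

/-- the displacement -/
def dp (ε : ℝ) (b v : ℂ) : ℂ := (min 1 (‖v‖ / (2 * ε)) : ℝ) * b

theorem cont_dp (ε : ℝ) : Continuous fun q : ℂ × ℂ => dp ε q.1 q.2 := by
  unfold dp
  fun_prop

theorem dp_far (h0 : 0 < ε) (h : 2 * ε ≤ ‖v‖) : dp ε b v = b := by
  rw [dp, min_eq_left ((one_le_div (by linarith)).2 h), ofReal_one, one_mul]

theorem dp_le (h0 : 0 < ε) : ‖dp ε b v‖ ≤ ‖b‖ := by
  rw [dp, norm_mul, norm_real, Real.norm_of_nonneg (le_min zero_le_one (by positivity))]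
  exact mul_le_of_le_one_left (norm_nonneg _) (min_le_left _ _)

theorem dp_lt (h : ‖b‖ < ε) (hv : v ≠ 0) : ‖dp ε b v / v‖ < 1 := by
  have h0 := (norm_nonneg _).trans_lt h
  have h1 := norm_pos_iff.2 hv
  rw [norm_div, div_lt_one h1, dp, norm_mul, norm_real,
    Real.norm_of_nonneg (le_min zero_le_one (by positivity))]
  refine (mul_le_mul_of_nonneg_right (min_le_right _ _) (norm_nonneg _)).trans_lt ?_
  rw [div_mul_eq_mul_div, div_lt_iff₀ (by linarith)]
  nlinarith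

theorem dp_ne (h : ‖b‖ < ε) (hv : v ≠ 0) : v + dp ε b v ≠ 0 := fun e => by
  have := dp_lt h hv
  rw [eq_neg_of_add_eq_zero_right e, neg_div, div_self hv, norm_neg, norm_one] at this
  exact this.false

end plane

variable {C : Type} [TopologicalSpace C] [ChartedSpace ℂ C] [T2Space C] {A : At C} {l : Cy A ℂ}
  {G : Geo A}
  {i : Fin G.N} {u0 : Fm A ℂ} {x : C} {j k : Fin A.N} {w : ℂ}

variable (G i) in
/-- the self map of the plane which moves `x` to the centre -/
def hm (x : C) (w : ℂ) : ℂ :=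
  G.c i + ((w - G.ch i x) + dp G.ε (G.ch i x - G.c i) (w - G.ch i x))

variable (G i) in
/-- the centre -/
abbrev ct : C := (G.ch i).symm (G.c i)

theorem mem_D {r : ℝ} (h : r ≤ 10 * G.δ) :
    x ∈ G.D i r ↔ x ∈ (G.ch i).source ∧ ‖G.ch i x - G.c i‖ < r :=
  (mem_img (ball_subset_closedBall.trans (G.tgt i h))).trans
    (and_congr_right fun _ => mem_ball_iff_norm)

theorem e_ct : G.ch i (ct G i) = G.c i :=
  (G.ch i).right_inv (G.t3 i (mem_closedBall_self (by linarith [G.ε0])))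

theorem ct_mem {r : ℝ} (h : 0 < r) : ct G i ∈ G.D i r := ⟨_, mem_ball_self h, rfl⟩

theorem hm_far (hx : x ∈ G.V i) (h : 3 * G.ε ≤ ‖w - G.c i‖) : hm G i x w = w := by
  rw [hm, dp_far G.ε0]
  · ring
  · linarith [norm_sub_le_norm_sub_add_norm_sub w (G.ch i x) (G.c i), (Geo.V_spec hx).2]

theorem off_ct (h : ‖w‖ < 10 * G.δ) (h0 : w ≠ 0) : G.c i + w ∈ off A (ct G i) (G.k i) := by
  have a : G.c i + w ∈ ball (0 : ℂ) A.R :=
    ball_subset_ball A.hR.le (G.unit i le_rfl (by simpa using h.le))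
  refine ⟨a, fun e => h0 ?_⟩
  have := rinv (i := G.k i) a
  rw [e, e_ct] at this
  simpa using this

theorem hm_off (hx : x ∈ G.V i) (h : ‖w - G.ch i x‖ < 9 * G.δ) (h0 : w ≠ G.ch i x) :
    hm G i x w ∈ off A (ct G i) (G.k i) :=
  off_ct ((norm_add_le _ _).trans_lt (by
    linarith [dp_le (b := G.ch i x - G.c i) (v := w - G.ch i x) G.ε0, (Geo.V_spec hx).2, G.εδ,
      G.ε0])) (dp_ne (Geo.V_spec hx).2 (sub_ne_zero.2 h0))

theorem hm_off' (hx : x ∈ G.V i) (hw : w ∈ off A x j) (h : (A.e j).symm w ∈ G.D i (4 * G.ε)) :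
    w ∈ A.O j (G.k i) ∧ hm G i x (A.tr j (G.k i) w) ∈ off A (ct G i) (G.k i) := by
  have e0 := G.ε0
  have e1 := G.εδ
  obtain ⟨a, b⟩ := (mem_D (by linarith)).1 h
  refine ⟨⟨hw.1, a⟩, hm_off hx ?_ fun e => hw.2 ((G.ch i).injOn a (Geo.V_spec hx).1 e)⟩
  have := norm_sub_le_norm_sub_add_norm_sub (G.ch i ((A.e j).symm w)) (G.c i) (G.ch i x)
  rw [norm_sub_rev (G.c i)] at this
  exact this.trans_lt (by linarith [(Geo.V_spec hx).2])

open Classical in
variable (l G i u0) in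
/-- the moved trivialisation -/
def mv (x : C) (j : Fin A.N) (w : ℂ) : ℂ :=
  if (A.e j).symm w ∈ G.D i (4 * G.ε) then
    l j (G.k i) w * u0 (G.k i) (hm G i x (A.tr j (G.k i) w)) else u0 j w

variable (l G i u0) in
/-- a trivialisation off the centre -/
structure Tr : Prop where
  cc : A.Cc l
  ct : ∀ j, ∀ w ∈ off A (ct G i) j, ContinuousAt (u0 j) w
  ne : ∀ j, ∀ w ∈ off A (P275SA.ct G i) j, u0 j w ≠ 0
  tr : ∀ j k, ∀ w ∈ A.O j k, (A.e j).symm w ≠ P275SA.ct G i → u0 j w = l j k w * u0 k (A.tr j k w)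

theorem ne_ct {r : ℝ} (h0 : 0 < r) (h : x ∉ G.D i r) : x ≠ ct G i := fun e => h (e ▸ ct_mem h0)

theorem Tr.far (h : Tr l G i u0) (hx : x ∈ G.V i) (hw : w ∈ ball (0 : ℂ) A.R)
    (a : (A.e j).symm w ∉ G.D i (3 * G.ε)) : mv l G i u0 x j w = u0 j w := by
  have e0 := G.ε0
  have e1 := G.εδ
  unfold mv
  split_ifs with b
  · have c := ((mem_D (by linarith)).1 b).1
    rw [hm_far (w := A.tr j (G.k i) w) hx (not_lt.1 fun d => a ((mem_D (by linarith)).2 ⟨c, d⟩)),
      h.tr j (G.k i) w ⟨hw, c⟩ (ne_ct (by linarith) a)]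
  · rfl

theorem Tr.near (h : Tr l G i u0) (hx : x ∈ G.V i) (hw : w ∈ A.O j (G.k i)) :
    mv l G i u0 x j w = l j (G.k i) w * u0 (G.k i) (hm G i x (A.tr j (G.k i) w)) := by
  have e0 := G.ε0
  have e1 := G.εδ
  unfold mv
  split_ifs with b
  · rfl
  · have c : 4 * G.ε ≤ ‖A.tr j (G.k i) w - G.c i‖ :=
      not_lt.1 fun d => b ((mem_D (by linarith)).2 ⟨hw.2, d⟩)
    rw [hm_far hx (by linarith), h.tr j (G.k i) w hw (ne_ct (by linarith) b)]

theorem Tr.cont (h : Tr l G i u0) (j : Fin A.N) :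
    ContinuousOn (fun p : C × ℂ => mv l G i u0 p.1 j p.2) {p | p.1 ∈ G.V i ∧ p.2 ∈ off A p.1 j} := by
  rintro ⟨x, w⟩ ⟨hx, hw⟩
  have e0 := G.ε0
  by_cases b : (A.e j).symm w ∈ G.D i (4 * G.ε)
  · obtain ⟨c, d⟩ := hm_off' hx hw b
    have c1 : ContinuousAt (fun p : C × ℂ => G.ch i p.1) (x, w) :=
      ((G.ch i).continuousAt (Geo.V_spec hx).1).comp_of_eq continuousAt_fst rfl
    have c2 : ContinuousAt (fun p : C × ℂ => A.tr j (G.k i) p.2) (x, w) :=
      (an_tr c).continuousAt.comp_of_eq continuousAt_snd rfl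
    have c3 : ContinuousAt (fun p : C × ℂ => hm G i p.1 (A.tr j (G.k i) p.2)) (x, w) :=
      continuousAt_const.add ((c2.sub c1).add ((cont_dp G.ε).continuousAt.comp
        (f := fun p : C × ℂ => (G.ch i p.1 - G.c i, A.tr j (G.k i) p.2 - G.ch i p.1))
        ((c1.sub continuousAt_const).prodMk (c2.sub c1))))
    refine ContinuousWithinAt.congr_of_eventuallyEq_of_mem (ContinuousAt.continuousWithinAt
      (((h.cc.an c).continuousAt.comp_of_eq continuousAt_snd rfl).mul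
        ((h.ct _ _ d).comp_of_eq c3 rfl))) ?_ ⟨hx, hw⟩
    filter_upwards [self_mem_nhdsWithin, nhdsWithin_le_nhds
      (continuousAt_snd (p := (x, w)) (O_nhds c))] with p a e using h.near a.1 e
  · refine ContinuousWithinAt.congr_of_eventuallyEq_of_mem (ContinuousAt.continuousWithinAt
      ((h.ct j w ⟨hw.1, ne_ct (by linarith) b⟩).comp_of_eq continuousAt_snd rfl)) ?_ ⟨hx, hw⟩
    filter_upwards [self_mem_nhdsWithin, nhdsWithin_le_nhds (continuousAt_snd (p := (x, w))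
      (contAt_symm hw.1 ((cds_compact (G.t3 i)).isClosed.isOpen_compl.mem_nhds
        fun e => b (cds_sub (by linarith) e))))] with p a e
    exact h.far a.1 a.2.1 fun f => e (dsc_sub f)

/-- the scalar data from a logarithm near the centre -/
def Tr.sca (h : Tr l G i u0) {n : ℕ} (hn : n ≠ 0) {d : ℤ} (V : ℂ → ℂ)
    (c1 : ContinuousOn V {L | ‖cexp L‖ < 6 * G.δ})
    (c2 : ∀ L, ‖cexp L‖ < 6 * G.δ → cexp (V L) = u0 (G.k i) (G.c i + cexp L))
    (c3 : ∀ L, ‖cexp L‖ < 6 * G.δ → V (L + 2 * π * I) = V L + 2 * π * I * d) :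
    Sca l n d G i u0 :=
  have e0 := G.ε0
  have e1 := G.εδ
  have k0 : ∀ q : Nd (G.V i) (5 * G.δ), ‖cexp q.1.2‖ < 5 * G.δ := fun q => by
    rw [norm_exp, ← Real.lt_log_iff_exp_lt (by linarith)]
    exact q.2.2
  have k1 : ∀ q : Nd (G.V i) (5 * G.δ),
      1 + dp G.ε (G.ch i q.1.1 - G.c i) (cexp q.1.2) / cexp q.1.2 ∈ slitPlane := fun q =>
    mem_slitPlane_of_norm_lt_one (dp_lt (Geo.V_spec q.2.1).2 (exp_ne_zero _))
  have k2 : ∀ q : Nd (G.V i) (5 * G.δ),
      cexp (q.1.2 + log (1 + dp G.ε (G.ch i q.1.1 - G.c i) (cexp q.1.2) / cexp q.1.2)) =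
        cexp q.1.2 + dp G.ε (G.ch i q.1.1 - G.c i) (cexp q.1.2) := fun q => by
    rw [Complex.exp_add, exp_log (slitPlane_ne_zero (k1 q)), mul_add, mul_one,
      mul_div_cancel₀ _ (exp_ne_zero _)]
  have k3 : ∀ q : Nd (G.V i) (5 * G.δ), ‖cexp (q.1.2 +
      log (1 + dp G.ε (G.ch i q.1.1 - G.c i) (cexp q.1.2) / cexp q.1.2))‖ < 6 * G.δ := fun q => by
    rw [k2]
    exact (norm_add_le _ _).trans_lt (by
      linarith [k0 q, dp_le (b := G.ch i q.1.1 - G.c i) (v := cexp q.1.2) e0, (Geo.V_spec q.2.1).2])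
  { u := mv l G i u0
    uc := h.cont
    un := fun x hx j w hw => by
      unfold mv
      split_ifs with b
      · exact mul_ne_zero (h.cc.ne (hm_off' hx hw b).1) (h.ne _ _ (hm_off' hx hw b).2)
      · exact h.ne j w ⟨hw.1, ne_ct (by linarith) b⟩
    ul := fun x hx j k w hw e => by
      unfold mv
      rw [symm_tr hw]
      split_ifs with b
      · rw [tr_tr hw, h.cc.mul j k _ w hw (hm_off' hx ⟨hw.1, e⟩ b).1, mul_assoc]
      · exact h.tr j k w hw (ne_ct (by linarith) b)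
    ctr := fun j w hw => by
      unfold mv
      split_ifs with b
      · rw [h.tr j _ w (hm_off' (G.ctr_mem i) hw b).1 hw.2, hm, e_ct]
        simp [dp]
      · rfl
    far := fun x hx j w hw => h.far hx hw
    s := fun q =>
      cexp (V (q.1.2 + log (1 + dp G.ε (G.ch i q.1.1 - G.c i) (cexp q.1.2) / cexp q.1.2)) / n)
    sc := by
      have a : Continuous fun q : Nd (G.V i) (5 * G.δ) => G.ch i q.1.1 :=
        (G.ch i).continuousOn.comp_continuous (by fun_prop) fun q => (Geo.V_spec q.2.1).1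
      have b : Continuous fun q : Nd (G.V i) (5 * G.δ) => cexp q.1.2 := by fun_prop
      exact ((c1.comp_continuous (Continuous.add (by fun_prop) ((continuous_const.add
        (((cont_dp _).comp ((a.sub continuous_const).prodMk b)).div b
          fun _ => exp_ne_zero _)).clog k1)) k3).div_const _).cexp
    sp := fun q => by
      have a : G.ch i q.1.1 + cexp q.1.2 ∈ ball (0 : ℂ) A.R :=
        mem_tgt.1 (Geo.ball_tgt q.2.1 le_rfl (by simpa using (k0 q).trans (by linarith)))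
      rw [← exp_nat_mul, mul_div_cancel₀ _ (Nat.cast_ne_zero.2 hn), c2 _ (k3 q), k2,
        h.near q.2.1 (O_self a), h.cc.one _ _ a, tr_self a, one_mul, hm, add_sub_cancel_left]
    sT := fun q => by
      simp only [Nd.T, exp_periodic q.1.2]
      rw [add_right_comm, c3 _ (k3 q), zeta, ← Complex.exp_add, add_div, add_comm] }

end Vale.Agent.P275SA
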